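import Mathlib

/-!
# P131 (helper81): hyperinvariant subspaces, definitions

Bounded operators on a complex Hilbert space `H` are continuous linear maps `H →L[ℂ] H`;
subspaces are `Submodule ℂ H`.
-/

namespace Vale.Agent.Lib.P131.H81

variable {H : Type*} [NormedAddCommGroup H] [InnerProductSpace ℂ H]

/-- `T` is nonscalar: it is not a scalar multiple of the identity. -/
def Nonscalar (T : H →L[ℂ] H) : Prop :=
  ∀ c : ℂ, T ≠ c • (1 : H →L[ℂ] H)

/-- The subspace `M` is hyperinvariant for `T`: every bounded operator commuting with `T`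
maps `M` into `M`. -/
def IsHyperinvariant (T : H →L[ℂ] H) (M : Submodule ℂ H) : Prop :=
  ∀ A : H →L[ℂ] H, A * T = T * A → ∀ x ∈ M, A x ∈ M

/-- `T` has a nontrivial closed hyperinvariant subspace. -/
def HasHyperinvariant (T : H →L[ℂ] H) : Prop :=
  ∃ M : Submodule ℂ H, IsClosed (M : Set H) ∧ M ≠ ⊥ ∧ M ≠ ⊤ ∧ IsHyperinvariant T M

/-- `A` lies in the double commutant of `T`: it commutes with every bounded operator that
commutes with `T`. -/
def InDoubleCommutant (T A : H →L[ℂ] H) : Prop :=
  ∀ B : H →L[ℂ] H, B * T = T * B → A * B = B * A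

/-- Every nonzero operator in the double commutant of `T` is injective with dense range. -/
def QuasiaffineBicommutant (T : H →L[ℂ] H) : Prop :=
  ∀ A : H →L[ℂ] H, InDoubleCommutant T A → A ≠ 0 →
    Function.Injective A ∧ DenseRange A

end Vale.Agent.Lib.P131.H81
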