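import Mathlib
import Vale.Agent.Lib.P131.helper81.Defs

/-!
# P131 (helper81): the kernel and the closed range of an operator in the double commutant

If `A` lies in the double commutant of `T`, then `ker A` and the closure of `range A` are
closed hyperinvariant subspaces of `T`.  Hence an operator without a nontrivial hyperinvariant
subspace has a double commutant whose nonzero elements are injective with dense range.
-/

namespace Vale.Agent.Lib.P131.H81

variable {H : Type*} [NormedAddCommGroup H] [InnerProductSpace ℂ H]

theorem ker_hyperinvariant {T A : H →L[ℂ] H} (hA : InDoubleCommutant T A) :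
    IsHyperinvariant T (LinearMap.ker (A : H →ₗ[ℂ] H)) := by
  intro B hB x hx
  have hx0 : A x = 0 := hx
  show A (B x) = 0
  have h : (A * B) x = (B * A) x := by rw [hA B hB]
  have h' : A (B x) = B (A x) := h
  rw [h', hx0, map_zero]

theorem closure_range_hyperinvariant {T A : H →L[ℂ] H} (hA : InDoubleCommutant T A) :
    IsHyperinvariant T (LinearMap.range (A : H →ₗ[ℂ] H)).topologicalClosure := by
  intro B hB x hx
  have hx' : x ∈ closure (LinearMap.range (A : H →ₗ[ℂ] H) : Set H) := hx
  show B x ∈ closure (LinearMap.range (A : H →ₗ[ℂ] H) : Set H)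
  refine map_mem_closure B.continuous hx' ?_
  rintro _ ⟨y, rfl⟩
  refine ⟨B y, ?_⟩
  have h : (A * B) y = (B * A) y := by rw [hA B hB]
  exact h

/-- A nonzero operator of the double commutant that is not injective gives a nontrivial
hyperinvariant subspace. -/
theorem hasHyperinvariant_of_not_injective {T A : H →L[ℂ] H} (hA : InDoubleCommutant T A)
    (hA0 : A ≠ 0) (hinj : ¬ Function.Injective A) : HasHyperinvariant T := by
  refine ⟨LinearMap.ker (A : H →ₗ[ℂ] H), A.isClosed_ker, ?_, ?_, ker_hyperinvariant hA⟩
  · intro h
    exact hinj (LinearMap.ker_eq_bot.1 h)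
  · intro h
    apply hA0
    ext x
    have hx : x ∈ LinearMap.ker (A : H →ₗ[ℂ] H) := by rw [h]; exact Submodule.mem_top
    exact hx

/-- A nonzero operator of the double commutant whose range is not dense gives a nontrivial
hyperinvariant subspace. -/
theorem hasHyperinvariant_of_not_denseRange {T A : H →L[ℂ] H} (hA : InDoubleCommutant T A)
    (hA0 : A ≠ 0) (hden : ¬ DenseRange A) : HasHyperinvariant T := by
  refine ⟨(LinearMap.range (A : H →ₗ[ℂ] H)).topologicalClosure,
    Submodule.isClosed_topologicalClosure _, ?_, ?_, closure_range_hyperinvariant hA⟩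
  · intro h
    apply hA0
    ext x
    have hx : A x ∈ (LinearMap.range (A : H →ₗ[ℂ] H)).topologicalClosure :=
      Submodule.le_topologicalClosure _ ⟨x, rfl⟩
    rw [h] at hx
    exact (Submodule.mem_bot ℂ).1 hx
  · intro h
    apply hden
    have h2 : Dense (LinearMap.range (A : H →ₗ[ℂ] H) : Set H) :=
      (Submodule.dense_iff_topologicalClosure_eq_top).2 h
    exact h2

/-- An operator without a nontrivial hyperinvariant subspace has a double commutant whose
nonzero elements are injective with dense range. -/
theorem quasiaffine_of_not_hasHyperinvariant {T : H →L[ℂ] H} (hT : ¬ HasHyperinvariant T) :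
    QuasiaffineBicommutant T := by
  intro A hA hA0
  constructor
  · by_contra hinj
    exact hT (hasHyperinvariant_of_not_injective hA hA0 hinj)
  · by_contra hden
    exact hT (hasHyperinvariant_of_not_denseRange hA hA0 hden)

/-- `T - c` lies in the double commutant of `T`. -/
theorem sub_smul_inDoubleCommutant (T : H →L[ℂ] H) (c : ℂ) :
    InDoubleCommutant T (T - c • (1 : H →L[ℂ] H)) := by
  intro B hB
  rw [sub_mul, mul_sub, hB, smul_mul_assoc, mul_smul_comm, one_mul, mul_one]

theorem sub_smul_ne_zero {T : H →L[ℂ] H} (hT : Nonscalar T) (c : ℂ) :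
    T - c • (1 : H →L[ℂ] H) ≠ 0 := fun h => hT c (sub_eq_zero.1 h)

/-- The reduction: the hyperinvariant subspace problem on `H` is equivalent to its restriction
to the operators whose double commutant has only injective nonzero elements with dense range,
and such operators have no eigenvalue and no non-dense `range (T - c)`. -/
theorem reduction (H : Type*) [NormedAddCommGroup H] [InnerProductSpace ℂ H] :
    ((∀ T : H →L[ℂ] H, Nonscalar T → HasHyperinvariant T) ↔
      (∀ T : H →L[ℂ] H, Nonscalar T → QuasiaffineBicommutant T → HasHyperinvariant T)) ∧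
    (∀ T : H →L[ℂ] H, ¬ HasHyperinvariant T → QuasiaffineBicommutant T) ∧
    (∀ T : H →L[ℂ] H, Nonscalar T → QuasiaffineBicommutant T → ∀ c : ℂ,
      Function.Injective (T - c • (1 : H →L[ℂ] H)) ∧
        DenseRange (T - c • (1 : H →L[ℂ] H))) := by
  refine ⟨⟨fun h T hT _ => h T hT, fun h T hT => ?_⟩,
    fun T hT => quasiaffine_of_not_hasHyperinvariant hT,
    fun T hT hq c => hq _ (sub_smul_inDoubleCommutant T c) (sub_smul_ne_zero hT c)⟩
  by_contra hno
  exact hno (h T hT (quasiaffine_of_not_hasHyperinvariant hno))

end Vale.Agent.Lib.P131.H81
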